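import Vale.Agent.P284Z.L.Spec
import Vale.Agent.P284.H419.K.Bas
import Vale.Agent.P284.H136.K8.Ch
import Vale.Agent.P284.H752.K8.D1

/-!
# P284Z, block L, piece 1: local computations
-/

open scoped ContDiff Topology ComplexOrder ComplexConjugate Matrix
open Filter Set Function

noncomputable section

namespace Vale.Agent.P284Z.L.S1

open Vale.Agent.P272.K Vale.Agent.P284.H608.K J Vale.Agent.P284.H205.K Vale.Agent.P284.H619.K
open Vale.Agent.P284.H136.K8 (dhL_pull af_zero)
open ContinuousAlternatingMap (alternatizeUncurryFin)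

variable {n p : ℕ} {b : Cm n → Cm p} {z : Cm n}

theorem dF_an (hb : AnalyticAt ℂ b z) : AnalyticAt ℂ (dF b) z := by
  obtain ⟨g, hg⟩ := Vale.Agent.P284.H419.K.exists_linv (n := n) (p := p)
  have h1 : AnalyticAt ℂ (fun y => Vale.Agent.P284.H419.K.evA (dF b y)) z :=
    analyticAt_pi_iff.2 fun s => by
      have e : (fun y => Vale.Agent.P284.H419.K.evA (dF b y) s) = fun y =>
          ∑ σ : Equiv.Perm (Fin p), ((Equiv.Perm.sign σ : ℤ) : ℂ) *
            ∏ i, fderiv ℂ b y (Pi.single (s i) 1) (σ i) :=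
        funext fun y => (dF_apply b y _).trans (Matrix.det_apply' _)
      rw [e]
      refine Finset.analyticAt_fun_sum _ fun σ _ => analyticAt_const.mul
        (Finset.analyticAt_fun_prod _ fun i _ => ?_)
      exact analyticAt_pi_iff.1 (((ContinuousLinearMap.apply ℂ (Cm p)
        (Pi.single (s i) (1 : ℂ) : Cm n)).analyticAt _).comp hb.fderiv) (σ i)
  exact ((g.analyticAt _).comp h1).congr (Eventually.of_forall fun y => hg _)

theorem dF_comp {τ : Cm n → Cm n} {b' : Cm n → Cm p} (hτ : DifferentiableAt ℂ τ z)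
    (hb : DifferentiableAt ℂ b' (τ z)) (h : b =ᶠ[𝓝 z] fun y => b' (τ y)) :
    dF b z = (dF b' (τ z)).compContinuousLinearMap (fderiv ℂ τ z) := by
  unfold dF
  rw [h.fderiv_eq, fderiv_fun_comp z hb hτ]
  rfl

theorem dF_eq (v : Fin p → Cm n) :
    dF b z v = (Matrix.of fun i l => pv (tL (fderiv ℂ b z) l) (v i)).det := by
  simp only [pv_tL]
  rfl

theorem exists_dual (h : Surjective (fderiv ℂ b z)) : ∃ ξ : Fin p → Cm n,
    (∀ l j, pv (tL (fderiv ℂ b z) l) (ξ j) = if l = j then 1 else 0) ∧ dF b z ξ = 1 := by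
  choose ξ hξ using fun j : Fin p => h (Pi.single j 1)
  have h1 : ∀ l j, pv (tL (fderiv ℂ b z) l) (ξ j) = if l = j then 1 else 0 := fun l j => by
    rw [pv_tL, hξ, Pi.single_apply]
  refine ⟨ξ, h1, ?_⟩
  rw [dF_eq, ← Matrix.det_one (n := Fin p)]
  congr 1
  ext i l
  rw [Matrix.of_apply, h1, Matrix.one_apply]
  exact if_congr eq_comm rfl rfl

theorem pb_eq : pb (jm b z) 1 = Vale.Agent.P284.H619.K.sq (tL (fderiv ℂ b z)) := by
  unfold pb
  rw [Matrix.mul_one]
  rfl

/-- a form in the kernel of the curvature is a multiple of `db` -/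
theorem exists_coef {w β : Mx n} (hw : w.PosDef) {ε : ℝ} (hε : 0 < ε)
    (hβ : (β - (ε : ℂ) • pb (jm b z) 1).PosSemidef) (h : Surjective (fderiv ℂ b z))
    {η : Af n p} (h0 : Ad w β η = 0) : ∃ c : ℂ, η = c • dF b z := by
  obtain ⟨ξ, h1, -⟩ := exists_dual h
  rw [pb_eq] at hβ
  refine ⟨η ξ, ?_⟩
  ext v
  rw [eq_det (wd_eq_zero hw hε hβ (by rw [h0]; exact le_rfl)) h1 v,
    ContinuousAlternatingMap.smul_apply, dF_eq, smul_eq_mul]

theorem dhL_congr {φ : Cm n → ℝ} {η ζ : Cm n → Af n p} (h : η =ᶠ[𝓝 z] ζ) :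
    dhL φ η z = dhL φ ζ z := by
  unfold dhL dzV
  rw [h.fderiv_eq, h.self_of_nhds]

theorem dbV_congr {η ζ : Cm n → Af n p} (h : η =ᶠ[𝓝 z] ζ) (c : Fin n) :
    dbV c η z = dbV c ζ z := by
  unfold dbV
  rw [h.fderiv_eq]

/-- `∂_h (g db) = 0` if `g` and the weight are functions of `b` -/
theorem dhL_basic {φ : Cm n → ℝ} {g : Cm n → ℂ} (hb : AnalyticAt ℂ b z)
    (hφ : DifferentiableAt ℝ φ z) (h1 : Lf b φ z) (h2 : Lf b g z) :
    dhL φ (fun y => g y • dF b y) z = 0 := by
  obtain ⟨φ', h3, h4⟩ := h1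
  obtain ⟨g', h5, h6⟩ := h2
  rw [dhL_pull (a := fun _ => 1) (η' := fun t => g' t • dt p) hb analyticAt_const one_ne_zero hφ h3
    (h4.mono fun y hy => by rw [hy, norm_one, one_pow, mul_one]) (h5.smul_const _)
    (h6.mono fun y hy => by
      change g y • dF b y = (1 : ℂ) • (g' (b y) • dt p).compContinuousLinearMap (fderiv ℂ b y)
      rw [hy, one_smul]
      rfl), af_zero (dhL _ _ _)]
  ext v
  exact mul_zero _

theorem dhL_mul {φ : Cm n → ℝ} {f : Cm n → ℂ} {σ : Cm n → Af n p} (hf : DifferentiableAt ℝ f z)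
    (hσ : DifferentiableAt ℝ σ z) : dhL φ (fun y => f y • σ y) z =
      alternatizeUncurryFin ((pL f z).smulRight (σ z)) + f z • dhL φ σ z := by
  rw [dhL_eq, dhL_eq, ((hasW_of_diff hf).smul (hasW_of_diff hσ)).pL_eq,
    ← ContinuousAlternatingMap.alternatizeUncurryFin_smul,
    ← ContinuousAlternatingMap.alternatizeUncurryFin_add]
  congr 1
  ext v w
  simp only [_root_.add_apply, _root_.sub_apply, _root_.smul_apply,
    ContinuousLinearMap.smulRight_apply, ContinuousAlternatingMap.add_apply,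
    ContinuousAlternatingMap.sub_apply, ContinuousAlternatingMap.smul_apply, smul_eq_mul]
  ring

/-- `∂_h (f db) = 0` implies that `df` kills the kernel of `db` -/
theorem kil_of_dh {φ : Cm n → ℝ} {f : Cm n → ℂ} (hb : AnalyticAt ℂ b z)
    (hs : Surjective (fderiv ℂ b z)) (hφ : DifferentiableAt ℝ φ z) (h1 : Lf b φ z)
    (hf : DifferentiableAt ℂ f z) (h0 : dhL φ (fun y => f y • dF b y) z = 0) : Kil b f z := by
  intro ξ hξ
  obtain ⟨ξ₀, -, h2⟩ := exists_dual hs
  have h3 := dhL_basic (g := fun _ => 1) hb hφ h1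
    ⟨fun _ => 1, differentiableAt_const _, Eventually.of_forall fun _ => rfl⟩
  simp only [one_smul] at h3
  rw [dhL_mul (hf.restrictScalars ℝ) ((dF_an hb).differentiableAt.restrictScalars ℝ), h3,
    (HasW.of_holo hf.hasFDerivAt).pL_eq] at h0
  have h4 := DFunLike.congr_fun h0 (Matrix.vecCons ξ ξ₀)
  rw [ContinuousAlternatingMap.add_apply, ContinuousAlternatingMap.alternatizeUncurryFin_apply,
    Fin.sum_univ_succ, Finset.sum_eq_zero] at h4
  · have e : (0 : Fin (p + 1)).removeNth (Matrix.vecCons ξ ξ₀) = ξ₀ := rfl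
    simpa [e, h2] using h4
  · intro i _
    have e : dF b z (i.succ.removeNth (Matrix.vecCons ξ ξ₀)) = 0 := by
      cases p with
      | zero => exact i.elim0
      | succ p => exact (dt (p + 1)).map_coord_zero 0 hξ
    simp [e]

theorem dbV_mul {f : Cm n → ℂ} {σ : Cm n → Af n p} (hf : DifferentiableAt ℝ f z)
    (hσ : DifferentiableAt ℂ σ z) (c : Fin n) :
    dbV c (fun y => f y • σ y) z = dzb c f z • σ z := by
  rw [((hasW_of_diff hf).smul (HasW.of_holo hσ.hasFDerivAt)).dbV c,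
    ← Vale.Agent.P284.H752.K8.dbV_eq_dzb, (hasW_of_diff hf).dbV c]
  simp

/-- the pointwise estimate of `S (g σ)` -/
theorem hn_SL {w : Cm n → Mx n} {β : Mx n} (hw : (w z).PosDef) {g : Cm n → ℂ}
    {σ : Cm n → Af n (p + 1)} (hg : DifferentiableAt ℝ g z) (hσ : DifferentiableAt ℂ σ z) {Λ : ℝ}
    (h : ((Λ : ℂ) • β - bb g z).PosSemidef) (τ : Af n p) :
    ‖hn (w z) τ (SL w (fun y => g y • σ y) z)‖ ^ 2 ≤
      Λ * (Ad (w z) β τ).re * (hn (w z) (σ z) (σ z)).re := by
  let θ : Fin n → ℂ := fun c => conj (dzb c g z)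
  have e1 : SL w (fun y => g y • σ y) z = (-1 : ℂ) • Lam (w z) fun c => conj (θ c) • σ z := by
    have e : (fun c => dbV c (fun y => g y • σ y) z) = fun c => conj (θ c) • σ z :=
      funext fun c => by rw [dbV_mul hg hσ, Complex.conj_conj]
    unfold SL
    rw [e]
    ext v
    exact (neg_one_mul _).symm
  have e2 : bb g z = Vale.Agent.P284.H619.K.sq fun _ : Unit => θ := by
    ext j k
    simp [bb, Vale.Agent.P284.H619.K.sq, θ]
  have h1 := (Complex.le_def.1 (Ad_mono hw h τ)).1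
  rw [e2, Ad_sq, Ad_smul, Complex.re_ofReal_mul, Fintype.sum_unique] at h1
  rw [e1, hn_smul_right, hn_wd hw, norm_mul, map_neg, map_one, norm_neg, norm_one, one_mul]
  exact (hn_cs hw _ _).trans
    (mul_le_mul_of_nonneg_right h1 (Complex.le_def.1 (hn_self_nonneg hw _)).1)

theorem hn_smul (w : Mx n) (c : ℂ) (A : Af n p) :
    (hn w (c • A) (c • A)).re = ‖c‖ ^ 2 * (hn w A A).re := by
  rw [hn_smul_left, hn_smul_right, ← mul_assoc, Complex.mul_conj, Complex.normSq_eq_norm_sq,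
    Complex.re_ofReal_mul]

theorem Ad_smul_zero {w β : Mx n} {A : Af n p} (h : Ad w β A = 0) (c : ℂ) :
    Ad w β (c • A) = 0 := by
  have e : ∀ a, wdz a (c • A) = c • wdz a A := fun a => by
    ext v
    simp only [wdz_apply, ContinuousAlternatingMap.smul_apply, smul_eq_mul, Finset.mul_sum]
    exact Finset.sum_congr rfl fun i _ => by ring
  have e2 : Ad w β (c • A) = c * conj c * Ad w β A := by
    unfold Ad
    simp only [e, hn_smul_left, hn_smul_right, Finset.mul_sum]
    exact Finset.sum_congr rfl fun _ _ => Finset.sum_congr rfl fun _ _ => by ring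
  rw [e2, h, mul_zero]

theorem trace_nonneg {w B : Mx n} (hw : w.PosDef) (hB : B.PosSemidef) :
    0 ≤ (w⁻¹ * B).trace := by
  obtain ⟨P, hP⟩ := exists_sq hw.inv
  rw [hP, Matrix.mul_assoc, Matrix.trace_mul_comm]
  exact (hB.conjTranspose_mul_mul_same P).trace_nonneg

/-- the estimate of `∂̄χ ⊗ A` -/
theorem Tn_le {w : Mx n} (hw : w.PosDef) {μ : Fin n → ℂ} {ε : ℝ}
    (h : ((ε : ℂ) • w - Matrix.of fun j k => μ j * conj (μ k)).PosSemidef) (A : Af n p) :
    (Tn w fun c => conj (μ c) • A).re ≤ n * ε * (hn w A A).re := by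
  have h1 := (Complex.le_def.1 (trace_nonneg hw h)).1
  rw [Matrix.mul_sub, Matrix.mul_smul, Matrix.nonsing_inv_mul _
    ((Matrix.isUnit_iff_isUnit_det _).1 hw.isUnit), Matrix.trace_sub, Matrix.trace_smul,
    Matrix.trace_one, Fintype.card_fin] at h1
  have h2 : (Tn w fun c => conj (μ c) • A) =
      (w⁻¹ * Matrix.of fun j k => μ j * conj (μ k)).trace * hn w A A := by
    unfold Tn Matrix.trace
    simp only [hn_smul_left, hn_smul_right, Complex.conj_conj, Matrix.diag_apply,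
      Matrix.mul_apply, Matrix.of_apply, Finset.sum_mul]
    exact Finset.sum_congr rfl fun _ _ => Finset.sum_congr rfl fun _ _ => by ring
  have h3 := Complex.le_def.1 (hn_self_nonneg hw A)
  rw [h2, Complex.mul_re, ← h3.2, Complex.zero_im, mul_zero, sub_zero]
  refine mul_le_mul_of_nonneg_right ?_ h3.1
  simp only [Complex.zero_re, Complex.sub_re, smul_eq_mul, Complex.re_ofReal_mul,
    Complex.natCast_re] at h1
  linarith

theorem dzb_real (f : Cm n → ℝ) (hf : DifferentiableAt ℝ f z) (c : Fin n) :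
    dzb c (fun y => (f y : ℂ)) z = conj (dz c (fun y => (f y : ℂ)) z) := by
  have e : ∀ v, fderiv ℝ (fun y => (f y : ℂ)) z v = (fderiv ℝ f z v : ℝ) := fun v =>
    DFunLike.congr_fun (Complex.ofRealCLM.hasFDerivAt.comp z hf.hasFDerivAt).fderiv v
  unfold dzb dz
  rw [e, e]
  simp only [map_div₀, map_sub, map_mul, Complex.conj_ofReal, Complex.conj_I, map_ofNat]
  ring

end Vale.Agent.P284Z.L.S1
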